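import Crest.Agent.R208.GP4a

-- ▼ part X262/Van/Germ
section

/-!
# Row 262, package VAN (helper47): germs of forms along a compact set

`X` is an embedded submanifold of `E` (the carrier of `R208`).  Forms are ambient forms, compared
on the tangent spaces of `X`, and only near a set `K`.

* `SmN`, `EqN`, `ClN`, `ExN` : smooth, equal, closed, exact near `K`;
* `ZN S K a` : `a` vanishes on every member of the family `S` near `K`;
* `glueN`   : Mayer-Vietoris for germs along two compact sets;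
* `Rel X S K` : closed forms vanishing on `S` have, near `K`, a primitive vanishing on `S`;
* `rel_of_homotopy`, `rel_of_local` : the local and the global step;
* `rel`     : the relative Poincare lemma along a compact subset of a submanifold;
* `core`    : a closed form which vanishes near `K'` and on `S ⊇ K ∖ K'` is exact near `K`.
-/

set_option autoImplicit false
set_option linter.unusedSectionVars false

open MeasureTheory Set Filter Topology Module
open scoped ContDiff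
open Crest.Agent.R208 Crest.Agent.R208.F Crest.Agent.R208.FI Crest.Agent.R208.CW
open Crest.Agent.R208.T

noncomputable section

namespace Crest.Agent.X262.Van

variable {E : Type} [NormedAddCommGroup E] [NormedSpace ℝ E] [FiniteDimensional ℝ E]
  {X S K K' K₁ K₂ U : Set E} {n m : ℕ} {a b c η η₁ η₂ ζ : E → Ext E} {x : E}
  {ι : Type} {Z : ι → Set E}

/-- restriction to the tangent space -/
abbrev rt (X : Set E) (x : E) : Ext E →ₐ[ℝ] Ext (Tan X x) := pb (Tan X x).subtype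

/-- smooth at the points of `X` near `K` -/
def SmN (X K : Set E) (a : E → Ext E) : Prop := ∀ᶠ x in 𝓝ˢ K, x ∈ X → ContDiffAt ℝ ∞ a x

/-- equal on `X` near `K` -/
def EqN (X K : Set E) (a b : E → Ext E) : Prop :=
  ∀ᶠ x in 𝓝ˢ K, x ∈ X → rt X x (a x) = rt X x (b x)

/-- closed on `X` near `K` -/
def ClN (X K : Set E) (a : E → Ext E) : Prop := EqN X K (F.d a) 0

/-- exact on `X` near `K` -/
def ExN (X K : Set E) (a : E → Ext E) : Prop := ∃ η : E → Ext E, SmN X K η ∧ EqN X K a (F.d η)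

/-- zero on every member of the family `Z`, near `K` -/
def ZN (Z : ι → Set E) (K : Set E) (a : E → Ext E) : Prop :=
  ∀ᶠ x in 𝓝ˢ K, ∀ i, x ∈ Z i → rt (Z i) x (a x) = 0

theorem eqv_inter_iff (hU : IsOpen U) :
    Eqv (X ∩ U) a b ↔ ∀ x ∈ X, x ∈ U → rt X x (a x) = rt X x (b x) := by
  refine ⟨fun h x hx hxU => eqv_of_open hU h hx hxU, fun h => eqv_iff.2 fun x hx => ?_⟩
  have h1 := h x hx.1 hx.2
  have h2 : Tan (X ∩ U) x = Tan X x := Tan_inter_open hU hx.2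
  have h3 : ∀ (K K' : Submodule ℝ E), K = K' → pb K'.subtype (a x) = pb K'.subtype (b x) →
      pb K.subtype (a x) = pb K.subtype (b x) := by
    rintro K K' rfl h; exact h
  exact h3 _ _ h2 h1

theorem exists_open {p : E → Prop} (h : ∀ᶠ x in 𝓝ˢ K, p x) :
    ∃ U : Set E, IsOpen U ∧ K ⊆ U ∧ ∀ x ∈ U, p x := by
  obtain ⟨U, hU, hKU, hp⟩ := mem_nhdsSet_iff_exists.1 h
  exact ⟨U, hU, hKU, fun x hx => hp hx⟩

theorem of_open {p : E → Prop} (hU : IsOpen U) (hKU : K ⊆ U) (h : ∀ x ∈ U, p x) :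
    ∀ᶠ x in 𝓝ˢ K, p x := by
  filter_upwards [hU.mem_nhdsSet.2 hKU] with x hx using h x hx

theorem SmN.mono (h : SmN X K a) (hK : K' ⊆ K) : SmN X K' a :=
  Eventually.filter_mono (nhdsSet_mono hK) h
theorem EqN.mono (h : EqN X K a b) (hK : K' ⊆ K) : EqN X K' a b :=
  Eventually.filter_mono (nhdsSet_mono hK) h
theorem ClN.mono (h : ClN X K a) (hK : K' ⊆ K) : ClN X K' a := EqN.mono h hK
theorem ExN.mono (h : ExN X K a) (hK : K' ⊆ K) : ExN X K' a := by
  obtain ⟨η, h1, h2⟩ := h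
  exact ⟨η, h1.mono hK, h2.mono hK⟩

theorem ZN.mono (h : ZN Z K a) (hK : K' ⊆ K) : ZN Z K' a :=
  Eventually.filter_mono (nhdsSet_mono hK) h
theorem ZN.zero : ZN Z K (0 : E → Ext E) := Eventually.of_forall fun _ _ _ => map_zero _
theorem ZN.sub (h : ZN Z K a) (h' : ZN Z K b) : ZN Z K (a - b) := by
  filter_upwards [h, h'] with x h1 h2 i hx
  rw [Pi.sub_apply, map_sub, h1 i hx, h2 i hx, sub_zero]
theorem ZN.eqN (h : ZN Z K a) (i : ι) : EqN (Z i) K a 0 := by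
  filter_upwards [h] with x h1 hx
  rw [h1 i hx]; exact (map_zero _).symm
theorem zN_of_eqN [Finite ι] (h : ∀ i, EqN (Z i) K a 0) : ZN Z K a := by
  filter_upwards [eventually_all.2 h] with x h1 i hx
  rw [h1 i hx]; exact map_zero _

theorem smN_of_sm (h : Sm X a) : SmN X K a := Eventually.of_forall fun x hx => h x hx
theorem eqN_of_eqv (h : Eqv X a b) : EqN X K a b :=
  Eventually.of_forall fun x hx => eqv_iff.1 h x hx
theorem clN_of_cl (h : Cl X a) : ClN X K a := eqN_of_eqv (resZero_iff.1 h)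

theorem SmN.zero : SmN X K (0 : E → Ext E) := smN_of_sm Sm.zero
theorem SmN.add (h : SmN X K a) (h' : SmN X K b) : SmN X K (a + b) := by
  filter_upwards [h, h'] with x h1 h2 hx using (h1 hx).add (h2 hx)
theorem SmN.sub (h : SmN X K a) (h' : SmN X K b) : SmN X K (a - b) := by
  filter_upwards [h, h'] with x h1 h2 hx using (h1 hx).sub (h2 hx)
theorem SmN.neg (h : SmN X K a) : SmN X K (-a) := by
  filter_upwards [h] with x h1 hx using (h1 hx).neg
theorem SmN.d (h : SmN X K a) : SmN X K (F.d a) := by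
  filter_upwards [h] with x h1 hx using contDiffAt_d (h1 hx) (by simp)
theorem SmN.dp (j : ℕ) (h : SmN X K a) : SmN X K (T.dp j a) := by
  filter_upwards [h] with x h1 hx using (dplL j).contDiff.contDiffAt.comp x (h1 hx)

theorem EqN.refl (a : E → Ext E) : EqN X K a a := Eventually.of_forall fun _ _ => rfl
theorem EqN.symm (h : EqN X K a b) : EqN X K b a := by
  filter_upwards [h] with x h1 hx using (h1 hx).symm
theorem EqN.trans (h : EqN X K a b) (h' : EqN X K b c) : EqN X K a c := by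
  filter_upwards [h, h'] with x h1 h2 hx using (h1 hx).trans (h2 hx)
theorem EqN.add {a' b' : E → Ext E} (h : EqN X K a b) (h' : EqN X K a' b') :
    EqN X K (a + a') (b + b') := by
  filter_upwards [h, h'] with x h1 h2 hx
  rw [Pi.add_apply, Pi.add_apply, map_add, map_add, h1 hx, h2 hx]
theorem EqN.sub {a' b' : E → Ext E} (h : EqN X K a b) (h' : EqN X K a' b') :
    EqN X K (a - a') (b - b') := by
  filter_upwards [h, h'] with x h1 h2 hx
  rw [Pi.sub_apply, Pi.sub_apply, map_sub, map_sub, h1 hx, h2 hx]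
theorem EqN.neg (h : EqN X K a b) : EqN X K (-a) (-b) := by
  filter_upwards [h] with x h1 hx
  rw [Pi.neg_apply, Pi.neg_apply, map_neg, map_neg, h1 hx]
theorem eqN_sub_zero : EqN X K (a - b) 0 ↔ EqN X K a b := by
  constructor
  · intro h
    have := h.add (EqN.refl b)
    rwa [sub_add_cancel, zero_add] at this
  · intro h
    have := h.sub (EqN.refl b)
    rwa [sub_self] at this

theorem d_add_eqN (h : SmN X K a) (h' : SmN X K b) : EqN X K (F.d (a + b)) (F.d a + F.d b) := by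
  filter_upwards [h, h'] with x h1 h2 hx
  congr 1
  exact F.d_add ((h1 hx).differentiableAt (by simp)) ((h2 hx).differentiableAt (by simp))
theorem d_sub_eqN (h : SmN X K a) (h' : SmN X K b) : EqN X K (F.d (a - b)) (F.d a - F.d b) := by
  filter_upwards [h, h'] with x h1 h2 hx
  congr 1
  exact F.d_sub ((h1 hx).differentiableAt (by simp)) ((h2 hx).differentiableAt (by simp))
theorem d_d_eqN (h : SmN X K a) : ClN X K (F.d a) := by
  filter_upwards [h] with x h1 hx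
  rw [F.d_d ((h1 hx).of_le two_le)]; rfl

theorem ClN.sub (h : SmN X K a) (h' : SmN X K b) (c1 : ClN X K a) (c2 : ClN X K b) :
    ClN X K (a - b) := by
  have := (d_sub_eqN h h').trans (EqN.sub c1 c2)
  rwa [sub_zero] at this

theorem EqN.d (hX : Sub n X) (ha : SmN X K a) (hb : SmN X K b) (h : EqN X K a b) :
    EqN X K (F.d a) (F.d b) := by
  obtain ⟨U, hU, hKU, hp⟩ := exists_open (ha.and (hb.and h))
  have h1 : Eqv (X ∩ U) (F.d a) (F.d b) :=
    Eqv.d (hX.inter_open hU) (fun x hx => (hp x hx.2).1 hx.1) (fun x hx => (hp x hx.2).2.1 hx.1)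
      ((eqv_inter_iff hU).2 fun x hx hxU => (hp x hxU).2.2 hx)
  exact of_open hU hKU fun x hxU hx => (eqv_inter_iff hU).1 h1 x hx hxU

theorem EqN.dp (j : ℕ) (h : EqN X K a b) : EqN X K (T.dp j a) (T.dp j b) := by
  filter_upwards [h] with x h1 hx
  show pb _ (dpl j (a x)) = pb _ (dpl j (b x))
  rw [← dpl_pb, ← dpl_pb]
  exact congrArg (dpl j) (h1 hx)

theorem ExN.add_d (h : SmN X K η) (h' : ExN X K (a - F.d η)) : ExN X K a := by
  obtain ⟨ξ, h1, h2⟩ := h'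
  refine ⟨ξ + η, h1.add h, ?_⟩
  have := (h2.add (EqN.refl (F.d η))).trans (d_add_eqN h1 h).symm
  rwa [sub_add_cancel] at this

/-- a primitive near a compact set may be chosen smooth on the whole of `X` -/
theorem ExN.exists_global (hK : IsCompact K) (h : ExN X K a) :
    ∃ η : E → Ext E, Sm X η ∧ EqN X K a (F.d η) := by
  obtain ⟨η, h1, h2⟩ := h
  obtain ⟨U, hU, hKU, hp⟩ := exists_open h1
  obtain ⟨χ, hχ, c0, c1, -⟩ := GP.exists_cut (K₁ := Uᶜ) (K₂ := K) hU.isClosed_compl hK.isClosed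
    (Set.disjoint_left.2 fun x hx hx' => hx (hKU hx'))
  refine ⟨fun x => χ x • η x, GP.sm_cut hχ (fun x _ hxU => c0 x hxU) (U := U)
    (fun x hx => hp x hx.2 hx.1), h2.trans ?_⟩
  have h3 : ∀ᶠ x in 𝓝ˢ K, ∀ᶠ y in 𝓝 x, χ y = 1 :=
    eventually_nhdsSet_iff_forall.2 fun x hx => (c1 x hx).eventually_nhds
  filter_upwards [h3] with x hx _
  congr 1
  refine F.d_congr ?_
  filter_upwards [hx] with y hy
  rw [hy, one_smul]

/-- homogeneous version -/
theorem ExN.exists_hom {p : ℕ} (hK : IsCompact K) (h : ExN X K a) (ha : Hom (p + 1) a) :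
    ∃ η : E → Ext E, Sm X η ∧ Hom p η ∧ EqN X K a (F.d η) := by
  obtain ⟨η, h1, h2⟩ := h.exists_global hK
  refine ⟨T.dp p η, h1.dp p, hom_dp p η, ?_⟩
  have h3 := (h2.dp (p + 1)).trans (eqN_of_eqv (Eqv.of_eq fun x hx => dp_d p (h1.diff hx)))
  rwa [ha.dp_eq] at h3

/-- **Mayer-Vietoris for germs** -/
theorem glueN (hX : Sub n X) (hK₁ : IsCompact K₁) (hK₂ : IsCompact K₂)
    (s1 : SmN X K₁ η₁) (s2 : SmN X K₂ η₂) (s3 : SmN X (K₁ ∩ K₂) ζ)
    (e1 : EqN X K₁ a (F.d η₁)) (e2 : EqN X K₂ a (F.d η₂))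
    (e3 : EqN X (K₁ ∩ K₂) (η₁ - η₂) (F.d ζ))
    (z1 : ZN Z K₁ η₁) (z2 : ZN Z K₂ η₂) (z3 : ZN Z (K₁ ∩ K₂) ζ) :
    ∃ η : E → Ext E, SmN X (K₁ ∪ K₂) η ∧ EqN X (K₁ ∪ K₂) a (F.d η) ∧ ZN Z (K₁ ∪ K₂) η := by
  have hi1 : K₁ ∩ K₂ ⊆ K₁ := inter_subset_left
  have hi2 : K₁ ∩ K₂ ⊆ K₂ := inter_subset_right
  obtain ⟨U, hU, hKU, hp⟩ := exists_open ((s1.mono hi1).and ((s2.mono hi2).and (s3.and
    ((e1.mono hi1).and (e3.and ((z1.mono hi1).and ((z2.mono hi2).and z3)))))))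
  obtain ⟨χ, hχ, c0, c1, -⟩ := GP.exists_cut (K₁ := K₁ \ U) (K₂ := K₂ \ U)
    (hK₁.isClosed.sdiff hU) (hK₂.isClosed.sdiff hU)
    (Set.disjoint_left.2 fun x hx hx' => hx.2 (hKU ⟨hx.1, hx'.1⟩))
  set dχ : E → Ext E := fun x => io ((fderiv ℝ χ x : E →L[ℝ] ℝ) : Module.Dual ℝ E) with hdχ
  have sdχ : ∀ x, ContDiffAt ℝ ∞ dχ x := by
    intro x
    have h1 : ContDiffAt ℝ ∞ (fun y => χ y • (1 : Ext E)) x :=
      hχ.contDiffAt.smul (contDiffAt_const (c := (1 : Ext E)))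
    have h2 : dχ = F.d (fun y => χ y • (1 : Ext E)) := by
      funext y
      rw [F.d_smul (hχ.contDiffAt.differentiableAt (by simp)) (differentiableAt_const _),
        F.d_const, smul_zero, add_zero, mul_one]
    rw [h2]
    exact contDiffAt_d h1 (by simp)
  set η : E → Ext E := fun x => (1 - χ x) • η₁ x + χ x • η₂ x - dχ x * ζ x with hη
  -- where `χ` is locally constant
  have n0 : ∀ y, (∀ᶠ z in 𝓝 y, χ z = 0) → η =ᶠ[𝓝 y] η₁ := by
    intro y hy
    filter_upwards [hy.eventually_nhds] with z hz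
    have h1 : fderiv ℝ χ z = 0 := by
      have : χ =ᶠ[𝓝 z] fun _ => 0 := hz
      rw [this.fderiv_eq, fderiv_fun_const]; rfl
    simp only [hη, hdχ, hz.self_of_nhds, h1, sub_zero, one_smul, zero_smul, add_zero,
      ContinuousLinearMap.toLinearMap_zero, map_zero, zero_mul]
  have n1 : ∀ y, (∀ᶠ z in 𝓝 y, χ z = 1) → η =ᶠ[𝓝 y] η₂ := by
    intro y hy
    filter_upwards [hy.eventually_nhds] with z hz
    have h1 : fderiv ℝ χ z = 0 := by
      have : χ =ᶠ[𝓝 z] fun _ => 1 := hz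
      rw [this.fderiv_eq, fderiv_fun_const]; rfl
    simp only [hη, hdχ, hz.self_of_nhds, h1, sub_self, one_smul, zero_smul, zero_add,
      ContinuousLinearMap.toLinearMap_zero, map_zero, zero_mul, sub_zero]
  -- on `U`
  have t1 : Sm (X ∩ U) η₁ := fun x hx => (hp x hx.2).1 hx.1
  have t2 : Sm (X ∩ U) η₂ := fun x hx => (hp x hx.2).2.1 hx.1
  have t3 : Sm (X ∩ U) ζ := fun x hx => (hp x hx.2).2.2.1 hx.1
  have sU : Sm (X ∩ U) η := fun x hx =>
    ((((contDiff_const.sub hχ).contDiffAt).smul (t1 x hx)).add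
      (hχ.contDiffAt.smul (t2 x hx))).sub (contDiffAt_mul (sdχ x) (t3 x hx))
  have sχζ : Sm (X ∩ U) (fun x => χ x • ζ x) := fun x hx => hχ.contDiffAt.smul (t3 x hx)
  have eU : Eqv (X ∩ U) η (η₁ - F.d (fun x => χ x • ζ x)) := by
    refine (eqv_inter_iff hU).2 fun x hx hxU => ?_
    have h1 := (hp x hxU).2.2.2.2.1 hx
    rw [Pi.sub_apply, map_sub] at h1
    rw [Pi.sub_apply, F.d_smul (hχ.contDiffAt.differentiableAt (by simp)) (t3.diff ⟨hx, hxU⟩)]
    simp only [hη, hdχ, map_sub, map_add, map_smul, ← h1, smul_sub, sub_smul, one_smul]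
    abel
  have dU : ∀ x ∈ X, x ∈ U → rt X x (a x) = rt X x (F.d η x) := by
    have h1 := eU.d (hX.inter_open hU) sU (t1.sub sχζ.d)
    have h2 := d_sub_eqv t1 sχζ.d
    have h3 : Eqv (X ∩ U) (F.d η₁ - F.d (F.d (fun x => χ x • ζ x))) (F.d η₁) := by
      have := (Eqv.refl (X := X ∩ U) (F.d η₁)).sub (resZero_iff.1 (d_d' sχζ))
      rwa [sub_zero] at this
    have h4 := (eqv_inter_iff hU).1 (h1.trans (h2.trans h3))
    intro x hx hxU
    rw [h4 x hx hxU]
    exact (hp x hxU).2.2.2.1 hx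
  have zU : ∀ x ∈ U, ∀ i, x ∈ Z i → rt (Z i) x (η x) = 0 := by
    intro x hxU i hx
    have h1 := (hp x hxU).2.2.2.2.2.1 i hx
    have h2 := (hp x hxU).2.2.2.2.2.2.1 i hx
    have h3 := (hp x hxU).2.2.2.2.2.2.2 i hx
    simp only [hη, map_sub, map_add, map_smul, map_mul, h1, h2, h3, smul_zero, mul_zero, add_zero,
      sub_zero]
  have key : ∀ᶠ y in 𝓝ˢ (K₁ ∪ K₂), (y ∈ X → ContDiffAt ℝ ∞ η y) ∧
      (y ∈ X → rt X y (a y) = rt X y (F.d η y)) ∧
      (∀ i, y ∈ Z i → rt (Z i) y (η y) = 0) := by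
    refine eventually_nhdsSet_iff_forall.2 fun x hx => ?_
    by_cases hxU : x ∈ U
    · filter_upwards [hU.mem_nhds hxU] with y hy
      exact ⟨fun h => sU y ⟨h, hy⟩, fun h => dU y h hy, zU y hy⟩
    · rcases hx with hx | hx
      · filter_upwards [(c0 x ⟨hx, hxU⟩).eventually_nhds, eventually_nhdsSet_iff_forall.1 s1 x hx,
          eventually_nhdsSet_iff_forall.1 e1 x hx, eventually_nhdsSet_iff_forall.1 z1 x hx]
          with y h1 h2 h3 h4
        have h5 := n0 y h1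
        refine ⟨fun h => (h2 h).congr_of_eventuallyEq h5, fun h => ?_, fun i h => ?_⟩
        · rw [F.d_congr h5]; exact h3 h
        · rw [h5.self_of_nhds]; exact h4 i h
      · filter_upwards [(c1 x ⟨hx, hxU⟩).eventually_nhds, eventually_nhdsSet_iff_forall.1 s2 x hx,
          eventually_nhdsSet_iff_forall.1 e2 x hx, eventually_nhdsSet_iff_forall.1 z2 x hx]
          with y h1 h2 h3 h4
        have h5 := n1 y h1
        refine ⟨fun h => (h2 h).congr_of_eventuallyEq h5, fun h => ?_, fun i h => ?_⟩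
        · rw [F.d_congr h5]; exact h3 h
        · rw [h5.self_of_nhds]; exact h4 i h
  exact ⟨η, key.mono fun _ h => h.1, key.mono fun _ h => h.2.1, key.mono fun _ h => h.2.2⟩

/-- closed forms vanishing on the family `Z` have, near `K`, a primitive vanishing on `Z` -/
def Rel (X : Set E) (Z : ι → Set E) (K : Set E) : Prop :=
  ∀ a : E → Ext E, SmN X K a → ClN X K a → ZN Z K a →
    ∃ η : E → Ext E, SmN X K η ∧ EqN X K a (F.d η) ∧ ZN Z K η

theorem rel_empty : Rel X Z ∅ := fun a _ _ _ =>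
  ⟨0, SmN.zero, by simp only [EqN, nhdsSet_empty, eventually_bot], ZN.zero⟩

theorem Rel.union (hX : Sub n X) (hK₁ : IsCompact K₁) (hK₂ : IsCompact K₂) (h1 : Rel X Z K₁)
    (h2 : Rel X Z K₂) (h3 : Rel X Z (K₁ ∩ K₂)) : Rel X Z (K₁ ∪ K₂) := by
  intro a sa ca za
  have hi1 : K₁ ∩ K₂ ⊆ K₁ := inter_subset_left
  have hi2 : K₁ ∩ K₂ ⊆ K₂ := inter_subset_right
  obtain ⟨η₁, s1, e1, z1⟩ := h1 a (sa.mono subset_union_left) (ca.mono subset_union_left)
    (za.mono subset_union_left)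
  obtain ⟨η₂, s2, e2, z2⟩ := h2 a (sa.mono subset_union_right) (ca.mono subset_union_right)
    (za.mono subset_union_right)
  have c3 : ClN X (K₁ ∩ K₂) (η₁ - η₂) := by
    have := (d_sub_eqN (s1.mono hi1) (s2.mono hi2)).trans
      ((e1.mono hi1).symm.sub (e2.mono hi2).symm)
    rwa [sub_self] at this
  obtain ⟨ζ, s3, e3, z3⟩ := h3 (η₁ - η₂) ((s1.mono hi1).sub (s2.mono hi2)) c3
    ((z1.mono hi1).sub (z2.mono hi2))
  exact glueN hX hK₁ hK₂ s1 s2 s3 e1 e2 e3 z1 z2 z3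

/-- **local step**: a deformation of `X` into `Z i₀` which fixes `K` and preserves the family -/
theorem rel_of_homotopy (hZ : ∀ i, Z i ⊆ X) {Fh : E × ℝ → E} {Ω₀ : Set (E × ℝ)} (hΩ₀ : IsOpen Ω₀)
    (hK : K ⊆ Sl Ω₀) (FC : ∀ p ∈ Ω₀, ContDiffAt ℝ ∞ Fh p) (FX : ∀ p ∈ Ω₀, p.1 ∈ X → Fh p ∈ X)
    (FK : ∀ y ∈ K, ∀ t ∈ Icc (0 : ℝ) 1, Fh (y, t) = y)
    (F1 : ∀ y ∈ X, (y, 1) ∈ Ω₀ → Fh (y, 1) = y) (i₀ : ι)
    (F0 : ∀ y ∈ X, (y, 0) ∈ Ω₀ → Fh (y, 0) ∈ Z i₀)
    (FZ : ∀ i, ∀ p ∈ Ω₀, p.1 ∈ Z i → Fh p ∈ Z i) : Rel X Z K := by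
  intro a sa ca za
  obtain ⟨U, hU, hKU, hp⟩ := exists_open (sa.and (ca.and za))
  set Ω : Set (E × ℝ) := Ω₀ ∩ Fh ⁻¹' U with hΩ
  have hΩo : IsOpen Ω :=
    ContinuousOn.isOpen_inter_preimage (fun p hp => (FC p hp).continuousAt.continuousWithinAt)
      hΩ₀ hU
  have hU' : IsOpen (Sl Ω) := isOpen_Sl hΩo
  have hKU' : K ⊆ Sl Ω := fun y hy t ht =>
    ⟨hK hy t ht, by rw [mem_preimage, FK y hy t ht]; exact hKU hy⟩
  have i0 : (0 : ℝ) ∈ Icc (0 : ℝ) 1 := left_mem_Icc.2 zero_le_one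
  have i1 : (1 : ℝ) ∈ Icc (0 : ℝ) 1 := right_mem_Icc.2 zero_le_one
  have hF : ∀ y ∈ Sl Ω, ∀ t ∈ Icc (0 : ℝ) 1, ContDiffAt ℝ ∞ Fh (y, t) := fun y hy t ht =>
    FC _ (hy t ht).1
  have hm : ∀ y ∈ X ∩ Sl Ω, ∀ t ∈ Icc (0 : ℝ) 1, Fh (y, t) ∈ X ∩ U := fun y hy t ht =>
    ⟨FX _ (hy.2 t ht).1 hy.1, (hy.2 t ht).2⟩
  have sU : Sm (X ∩ U) a := fun y hy => (hp y hy.2).1 hy.1
  have cU : Cl (X ∩ U) a :=
    resZero_iff.2 ((eqv_inter_iff hU).2 fun y hy hyU => (hp y hyU).2.1 hy)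
  have zU : ∀ i, ResZero (Z i ∩ U) a := fun i =>
    resZero_iff.2 ((eqv_inter_iff hU).2 fun y hy hyU => by
      rw [(hp y hyU).2.2 i hy]; exact (map_zero _).symm)
  have hFt : ∀ t ∈ Icc (0 : ℝ) 1, ∀ y ∈ Sl Ω, ContDiffAt ℝ ∞ (fun z : E => Fh (z, t)) y :=
    fun t ht y hy => (hF y hy t ht).comp (f := fun z : E => (z, t)) y
      (contDiffAt_id.prodMk contDiffAt_const)
  refine ⟨Hop Fh a, of_open hU' hKU' fun y hy hyX =>
    contDiffAt_Hop (hF y hy) fun t ht => sU _ (hm y ⟨hyX, hy⟩ t ht), ?_,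
    of_open hU' hKU' fun y hy i hyS => ?_⟩
  · have h1 : Eqv (X ∩ Sl Ω) (F.pull (fun y => Fh (y, 1)) a - F.pull (fun y => Fh (y, 0)) a)
        (F.d (Hop Fh a)) :=
      resZero_Hop (X := X ∩ Sl Ω) (Y := X ∩ U)
        (fun y hy t ht => (hF y hy.2 t ht).of_le two_le) hm
        (fun y hy => (sU y hy).of_le (by exact_mod_cast le_top)) cU
    have h2 : Eqv (X ∩ Sl Ω) (F.pull (fun y => Fh (y, 1)) a) a := by
      have h3 := eqv_pull_of_eq (X := X ∩ Sl Ω) (f := fun y => Fh (y, 1)) (g := fun y => y) a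
        (fun y hy => (hFt 1 i1 y hy.2).differentiableAt (by simp))
        (fun y _ => differentiableAt_id) (fun y hy => F1 y hy.1 (hy.2 1 i1).1)
      exact h3.trans (Eqv.of_eq fun y _ => F.pull_id a y)
    have h4 : Eqv (X ∩ Sl Ω) (F.pull (fun y => Fh (y, 0)) a) 0 :=
      resZero_iff.1 (ResZero.pull (Y := Z i₀ ∩ U) ⟨fun y hy => hFt 0 i0 y hy.2,
        fun y hy => ⟨F0 y hy.1 (hy.2 0 i0).1, (hy.2 0 i0).2⟩⟩ (zU i₀))
    have h5 := (h2.sub h4).symm.trans h1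
    rw [sub_zero] at h5
    exact of_open hU' hKU' fun y hy hyX => (eqv_inter_iff hU').1 h5 y hyX hy
  · have h1 : ResZero (Z i ∩ Sl Ω) (Hop Fh a) :=
      resZero_hop (j := ContinuousLinearMap.inl ℝ E ℝ) (v := ((0, 1) : E × ℝ)) (Y := Z i ∩ U)
        (fun y hy t ht => by rw [jv_inl]; exact (hF y hy.2 t ht).of_le two_le)
        (fun y hy t ht => by rw [jv_inl]; exact ⟨FZ i _ (hy.2 t ht).1 hy.1, (hy.2 t ht).2⟩)
        (fun y hy t ht => by
          rw [jv_inl]; exact (sU _ (hm y ⟨hZ i hy.1, hy.2⟩ t ht)).continuousAt) (zU i)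
    rw [(eqv_inter_iff hU').1 (resZero_iff.1 h1) y hyS hy]
    exact map_zero _

/-- **global step** -/
theorem rel_of_local (hX : Sub n X) (hK : IsCompact K)
    (h : ∀ x ∈ K, ∃ V : Set E, IsOpen V ∧ x ∈ V ∧ ∀ L, IsCompact L → L ⊆ V ∩ K → Rel X Z L) :
    Rel X Z K := by
  have key : ∃ V : Set E, IsOpen V ∧ K ⊆ V ∧ ∀ L, IsCompact L → L ⊆ V ∩ K → Rel X Z L := by
    refine hK.induction_on (p := fun T => ∃ V : Set E, IsOpen V ∧ T ⊆ V ∧
      ∀ L, IsCompact L → L ⊆ V ∩ K → Rel X Z L) ?_ ?_ ?_ ?_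
    · refine ⟨∅, isOpen_empty, Subset.rfl, fun L _ hL => ?_⟩
      rw [subset_empty_iff.1 fun y hy => (hL hy).1]
      exact rel_empty
    · rintro s t hst ⟨V, h1, h2, h3⟩
      exact ⟨V, h1, hst.trans h2, h3⟩
    · rintro s t ⟨V, h1, h2, h3⟩ ⟨V', h1', h2', h3'⟩
      refine ⟨V ∪ V', h1.union h1', union_subset_union h2 h2', fun L hL hLV => ?_⟩
      obtain ⟨L₁, L₂, c1, c2, d1, d2, rfl⟩ :=
        hL.binary_compact_cover h1 h1' fun y hy => (hLV hy).1
      have e1 : L₁ ⊆ V ∩ K := fun y hy => ⟨d1 hy, (hLV (Or.inl hy)).2⟩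
      have e2 : L₂ ⊆ V' ∩ K := fun y hy => ⟨d2 hy, (hLV (Or.inr hy)).2⟩
      exact Rel.union hX c1 c2 (h3 _ c1 e1) (h3' _ c2 e2)
        (h3 _ (c1.inter c2) (inter_subset_left.trans e1))
    · intro x hx
      obtain ⟨V, h1, h2, h3⟩ := h x hx
      exact ⟨V, mem_nhdsWithin_of_mem_nhds (h1.mem_nhds h2), V, h1, Subset.rfl, h3⟩
  obtain ⟨V, -, h2, h3⟩ := key
  exact h3 K hK fun y hy => ⟨h2 hy, hy⟩

/-- **relative Poincare lemma**, local form -/
theorem loc_rel (hX : Sub n X) (hS : Sub m S) (hSX : S ⊆ X) (hx : x ∈ S) :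
    ∃ V : Set E, IsOpen V ∧ x ∈ V ∧ ∀ K, K ⊆ V ∩ S → Rel X (fun _ : Unit => S) K := by
  obtain ⟨f, W₀, O₀, ℓ, hL₀, hxO₀⟩ := hX.exists_loc (hSX hx)
  obtain ⟨ρ, hρ, hB⟩ := Metric.isOpen_iff.1 hL₀.oW (ℓ x) (hL₀.maps x hxO₀)
  have hL := hL₀.restrict hB Metric.isOpen_ball
  set B := Metric.ball (ℓ x) ρ with hBdef
  set O := O₀ ∩ ℓ ⁻¹' B with hO
  have hxO : x ∈ O := ⟨hxO₀, Metric.mem_ball_self hρ⟩
  obtain ⟨g, W', O', ℓ', hL', hxO'⟩ := hS.exists_loc hx
  set r : E → E := fun y => g (ℓ' y) with hr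
  have rC : ∀ y ∈ O', ContDiffAt ℝ ∞ r y := fun y hy =>
    (hL'.fC' (hL'.maps y hy)).comp y (hL'.lC' hy)
  have rS : ∀ y ∈ O', r y ∈ S := fun y hy => (hL'.mem (hL'.maps y hy)).1
  have rid : ∀ y ∈ S, y ∈ O' → r y = y := fun y hy hyO => hL'.right_inv hy hyO
  have rc : ContinuousOn r O' := fun y hy => (rC y hy).continuousAt.continuousWithinAt
  set V : Set E := O ∩ (O' ∩ r ⁻¹' O) with hV
  have hVo : IsOpen V := hL.oO.inter (rc.isOpen_inter_preimage hL'.oO hL.oO)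
  refine ⟨V, hVo, ⟨hxO, hxO', by rw [mem_preimage, rid x hx hxO']; exact hxO⟩, ?_⟩
  set A : E × ℝ → Eu n := fun p => (1 - p.2) • ℓ (r p.1) + p.2 • ℓ p.1 with hA
  have AC : ∀ p : E × ℝ, p.1 ∈ V → ContDiffAt ℝ ∞ A p := by
    intro p hp
    have h1 : ContDiffAt ℝ ∞ (fun q : E × ℝ => ℓ (r q.1)) p :=
      ((hL.lC' hp.2.2).comp p.1 (rC _ hp.2.1)).comp p contDiffAt_fst
    have h2 : ContDiffAt ℝ ∞ (fun q : E × ℝ => ℓ q.1) p := (hL.lC' hp.1).comp p contDiffAt_fst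
    exact ((contDiffAt_const.sub contDiffAt_snd).smul h1).add (contDiffAt_snd.smul h2)
  have AB : ∀ y ∈ V, ∀ t ∈ Icc (0 : ℝ) 1, A (y, t) ∈ B := fun y hy t ht =>
    (convex_ball (ℓ x) ρ) (hL.maps _ hy.2.2) (hL.maps _ hy.1) (sub_nonneg.2 ht.2) ht.1 (by ring)
  have FS : ∀ y ∈ V, y ∈ S → ∀ t, f (A (y, t)) = y := by
    intro y hy hyS t
    simp only [hA, rid y hyS hy.2.1]
    rw [← add_smul, sub_add_cancel, one_smul]
    exact hL.right_inv (hSX hyS) hy.1
  have hΩ : IsOpen ((Prod.fst ⁻¹' V : Set (E × ℝ)) ∩ A ⁻¹' B) :=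
    ContinuousOn.isOpen_inter_preimage (fun p hp => (AC p hp).continuousAt.continuousWithinAt)
      (hVo.preimage continuous_fst) Metric.isOpen_ball
  intro K hK
  refine rel_of_homotopy (Fh := fun p => f (A p)) (fun _ => hSX) hΩ
    (fun y hy t ht => ⟨(hK hy).1, AB y (hK hy).1 t ht⟩)
    (fun p hp => (hL.fC' hp.2).comp p (AC p hp.1)) (fun p hp _ => (hL.mem hp.2).1)
    (fun y hy t _ => FS y (hK hy).1 (hK hy).2 t) (fun y hy h => ?_) () (fun y _ h => ?_)
    (fun _ p hp h => ?_)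
  · simp only [hA, sub_self, zero_smul, zero_add, one_smul]
    exact hL.right_inv hy h.1.1
  · simp only [hA, sub_zero, zero_smul, add_zero, one_smul]
    rw [hL.right_inv (hSX (rS y h.1.2.1)) h.1.2.2]
    exact rS y h.1.2.1
  · have := FS p.1 hp.1 h p.2
    simp only [Prod.mk.eta] at this
    rw [this]
    exact h

/-- **relative Poincare lemma** along a compact subset of a submanifold -/
theorem rel (hX : Sub n X) (hS : Sub m S) (hSX : S ⊆ X) (hK : IsCompact K) (hKS : K ⊆ S) :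
    Rel X (fun _ : Unit => S) K :=
  rel_of_local hX hK fun x hx => by
    obtain ⟨V, h1, h2, h3⟩ := loc_rel hX hS hSX (hKS hx)
    exact ⟨V, h1, h2, fun L _ hL => h3 L fun y hy => ⟨(hL hy).1, hKS (hL hy).2⟩⟩

theorem rel' (hX : Sub n X) (hS : Sub m S) (hSX : S ⊆ X) (hK : IsCompact K) (hKS : K ⊆ S)
    (sa : SmN X K a) (ca : ClN X K a) (za : EqN S K a 0) :
    ∃ η : E → Ext E, SmN X K η ∧ EqN X K a (F.d η) ∧ EqN S K η 0 := by
  obtain ⟨η, h1, h2, h3⟩ := rel hX hS hSX hK hKS a sa ca (zN_of_eqN fun _ => za)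
  exact ⟨η, h1, h2, h3.eqN ()⟩

/-- a closed form vanishing near `K'` and on a submanifold containing `K ∖ K'` is exact near `K` -/
theorem core (hX : Sub n X) (hS : Sub m S) (hSX : S ⊆ X) (hK : IsCompact K) (hK' : IsCompact K')
    (hKS : K \ K' ⊆ S) (sa : SmN X K a) (ca : ClN X K a) (h0 : EqN X K' a 0) (za : EqN S K a 0) :
    ExN X K a := by
  obtain ⟨U, hU, hKU, hp⟩ := exists_open h0
  obtain ⟨L, hL, hL1, hL2⟩ := exists_compact_between hK' hU hKU
  have c1 : IsCompact (K ∩ L) := hK.inter hL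
  have c2 : IsCompact (K \ interior L) := hK.diff isOpen_interior
  have d2 : K \ interior L ⊆ S := fun y hy => hKS ⟨hy.1, fun h => hy.2 (hL1 h)⟩
  have hKK : K ∩ L ∪ K \ interior L = K := by
    apply Subset.antisymm
    · exact union_subset inter_subset_left sdiff_subset
    · intro y hy
      by_cases h : y ∈ interior L
      · exact Or.inl ⟨hy, interior_subset h⟩
      · exact Or.inr ⟨hy, h⟩
  have z1 : EqN X (K ∩ L) a 0 := of_open hU (inter_subset_right.trans hL2) hp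
  obtain ⟨η₂, s2, e2, z2⟩ := rel' hX hS hSX c2 d2 (sa.mono sdiff_subset) (ca.mono sdiff_subset)
    (za.mono sdiff_subset)
  have hi1 : K ∩ L ∩ (K \ interior L) ⊆ K ∩ L := inter_subset_left
  have hi2 : K ∩ L ∩ (K \ interior L) ⊆ K \ interior L := inter_subset_right
  have c3 : ClN X (K ∩ L ∩ (K \ interior L)) (0 - η₂) := by
    rw [zero_sub, ClN, d_neg']
    have := ((e2.mono hi2).symm.trans (z1.mono hi1)).neg
    rwa [neg_zero] at this
  have z3 : EqN S (K ∩ L ∩ (K \ interior L)) (0 - η₂) 0 := by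
    have := (z2.mono hi2).neg
    rwa [neg_zero, ← zero_sub] at this
  obtain ⟨ζ, s3, e3, -⟩ := rel' hX hS hSX (c1.inter c2) (hi2.trans d2) (a := 0 - η₂)
    (SmN.zero.sub (s2.mono hi2)) c3 z3
  have ee : ∀ (L' : Set E) (w : E → Ext E), ZN (fun _ : Empty => (∅ : Set E)) L' w :=
    fun L' w => Eventually.of_forall fun y i => i.elim
  obtain ⟨η, h1, h2, -⟩ := glueN (η₁ := 0) hX c1 c2 SmN.zero s2 s3
    (by rw [d_zero']; exact z1) e2 e3 (ee _ _) (ee _ _) (ee _ _)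
  rw [hKK] at h1 h2
  exact ⟨η, h1, h2⟩

end Crest.Agent.X262.Van
end
end

-- ▼ part X262/Van/Step

/-!
# Row 262, package VAN (helper47): stratified vanishing

* `Low X K j` : closed forms of degree `> j` are exact near `K`;
* `Low.step`  : adding a submanifold of dimension `≤ j`;
* `Par`       : `ν : M → X` is an injective immersion outside the preimage of `K'`;
* `Par.sub`   : the image of that part is a submanifold;
* `Low.par`, `ExN.par` : the low and the top step for a parametrised stratum;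
* `ExN.exists_rep` : a form exact near `K` is cohomologous to a form vanishing near `K`.
-/

set_option autoImplicit false
set_option linter.unusedSectionVars false

open MeasureTheory Set Filter Topology Module
open scoped ContDiff
open Crest.Agent.R208 Crest.Agent.R208.F Crest.Agent.R208.FI Crest.Agent.R208.CW
open Crest.Agent.R208.T

noncomputable section

namespace Crest.Agent.X262.Van

variable {E : Type} [NormedAddCommGroup E] [NormedSpace ℝ E] [FiniteDimensional ℝ E]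
  {E' : Type} [NormedAddCommGroup E'] [NormedSpace ℝ E'] [FiniteDimensional ℝ E']
  {X S K K' : Set E} {M : Set E'} {ν : E' → E} {n m j p : ℕ} {a : E → Ext E}

/-- closed homogeneous forms of degree `> j` are exact near `K` -/
def Low (X K : Set E) (j : ℕ) : Prop :=
  ∀ p, j < p → ∀ a : E → Ext E, Hom p a → SmN X K a → ClN X K a → ExN X K a



theorem Low.mono {j' : ℕ} (h : Low X K j) (hj : j ≤ j') : Low X K j' :=
  fun p hp => h p (hj.trans_lt hp)

theorem rt_eq_zero_of_lt (hS : Sub m S) {x : E} (hx : x ∈ S) {c : Ext E} (hc : IsDeg p c)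
    (hp : m < p) : rt S x c = 0 :=
  (hc.pb _).eq_zero (by rw [hS.finrank_Tan hx]; exact hp)

theorem ClN.sub_d {η : E → Ext E} (sa : SmN X K a) (ca : ClN X K a) (hη : Sm X η) :
    ClN X K (a - F.d η) :=
  ClN.sub sa (smN_of_sm hη.d) ca (d_d_eqN (smN_of_sm hη))

/-- adding a stratum of small dimension -/
theorem ExN.step (hX : Sub n X) (hS : Sub m S) (hSX : S ⊆ X) (hK : IsCompact K)
    (hK' : IsCompact K') (hKS : K \ K' ⊆ S) (hm : m < p) (ha : Hom p a) (sa : SmN X K a)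
    (ca : ClN X K a) (h : ExN X K' a) : ExN X K a := by
  obtain ⟨q, rfl⟩ : ∃ q, p = q + 1 := ⟨p - 1, by omega⟩
  obtain ⟨η, h1, h2, h3⟩ := h.exists_hom hK' ha
  refine ExN.add_d (smN_of_sm h1) (core hX hS hSX hK hK' hKS (sa.sub (smN_of_sm h1.d))
    (ca.sub_d sa h1) (eqN_sub_zero.2 h3) (Eventually.of_forall fun x hx => ?_))
  rw [rt_eq_zero_of_lt hS hx ((ha.sub h2.d) x) hm]
  exact (map_zero _).symm

theorem Low.step (hX : Sub n X) (hS : Sub m S) (hSX : S ⊆ X) (hK : IsCompact K)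
    (hK' : IsCompact K') (hKK : K' ⊆ K) (hKS : K \ K' ⊆ S) (hm : m ≤ j) (h : Low X K' j) :
    Low X K j := fun p hp a ha sa ca =>
  ExN.step hX hS hSX hK hK' hKS (hm.trans_lt hp) ha sa ca (h p hp a ha (sa.mono hKK) (ca.mono hKK))


theorem sub_singleton (x : E) : Sub 0 ({x} : Set E) := by
  refine Sub.of_loc' fun y hy => ⟨fun _ => x, univ, univ, fun _ => 0, ⟨isOpen_univ, isOpen_univ,
    contDiffOn_const, contDiffOn_const, ?_, fun w _ => Subsingleton.elim _ _,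
    fun _ _ => mem_univ _⟩, mem_univ _⟩
  rw [inter_univ]
  exact Nonempty.image_const univ_nonempty x



/-- `ν` maps the closed manifold `M` to `X`; outside the preimage of `K'` it is an injective
immersion -/
structure Par (m : ℕ) (M : Set E') (X : Set E) (ν : E' → E) (K' : Set E) : Prop where
  clo : Clo m M
  smap : SMap M X ν
  injOn : InjOn ν (M \ ν ⁻¹' K')
  imm : ∀ y ∈ M, ν y ∉ K' → ∀ v ∈ Tan M y, fderiv ℝ ν y v = 0 → v = 0

namespace Par

theorem cont (h : Par m M X ν K') : ContinuousOn ν M := fun y hy =>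
  (h.smap.smooth y hy).continuousAt.continuousWithinAt

theorem isCompact_image (h : Par m M X ν K') : IsCompact (ν '' M) :=
  h.clo.compact.image_of_continuousOn h.cont

theorem isCompact_pre (h : Par m M X ν K') (hK' : IsClosed K') : IsCompact (M ∩ ν ⁻¹' K') :=
  h.clo.compact.of_isClosed_subset
    (h.cont.preimage_isClosed_of_isClosed h.clo.compact.isClosed hK') inter_subset_left

theorem exists_chart (h : Par m M X ν K') (hK' : IsClosed K') {y : E'} (hy : y ∈ M)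
    (hyK : ν y ∉ K') : ∃ (f : Eu m → E') (V : Set (Eu m)) (u : Eu m), u ∈ V ∧ f u = y ∧
      Chart m M f V ∧ (∀ w ∈ V, ν (f w) ∉ K') ∧
      Chart m (ν '' (M \ ν ⁻¹' K')) (fun w => ν (f w)) V := by
  obtain ⟨f, V₀, hf₀, u, hu, rfl⟩ := h.clo.chart y hy
  have c0 : ∀ w ∈ V₀, ContDiffAt ℝ ∞ (fun w => ν (f w)) w := fun w hw =>
    (h.smap.smooth _ (hf₀.mem hw)).comp w (hf₀.contDiffAt hw)
  have c1 : ContinuousOn (fun w => ν (f w)) V₀ := fun w hw =>
    (c0 w hw).continuousAt.continuousWithinAt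
  set V := V₀ ∩ (fun w => ν (f w)) ⁻¹' K'ᶜ with hV
  have hVo : IsOpen V := c1.isOpen_inter_preimage hf₀.isOpen hK'.isOpen_compl
  have hf : Chart m M f V := hf₀.mono inter_subset_left hVo
  have hmem : ∀ w ∈ V, f w ∈ M \ ν ⁻¹' K' := fun w hw => ⟨hf.mem hw, hw.2⟩
  refine ⟨f, V, u, ⟨hu, hyK⟩, rfl, hf, fun w hw => hw.2, hVo,
    fun w hw => (c0 w hw.1).contDiffWithinAt,
    fun w hw w' hw' e => hf.injOn hw hw' (h.injOn (hmem w hw) (hmem w' hw') e), ?_, ?_⟩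
  · intro w hw
    have h1 : fderiv ℝ (fun w => ν (f w)) w = (fderiv ℝ ν (f w)).comp (fderiv ℝ f w) :=
      fderiv_comp w (h.smap.diff (hf.mem hw)) (hf.differentiableAt hw)
    rw [h1, injective_iff_map_eq_zero]
    intro v hv
    have h2 := h.imm _ (hf.mem hw) hw.2 _ (hf.fderiv_mem hw v) hv
    exact (injective_iff_map_eq_zero _).1 (hf.inj w hw) v h2
  · intro W hW hWo
    obtain ⟨U, hU, hUW⟩ := hf.image_open W hW hWo
    have c2 : IsCompact (ν '' (M \ U)) :=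
      (h.clo.compact.diff hU).image_of_continuousOn (h.cont.mono sdiff_subset)
    refine ⟨(ν '' (M \ U))ᶜ, c2.isClosed.isOpen_compl, Subset.antisymm ?_ ?_⟩
    · rintro _ ⟨w, hw, rfl⟩
      refine ⟨⟨f w, hmem w (hW hw), rfl⟩, ?_⟩
      rintro ⟨z, hz, e⟩
      have h1 : z ∈ M \ ν ⁻¹' K' := ⟨hz.1, by rw [mem_preimage, e]; exact (hW hw).2⟩
      have h2 : z = f w := h.injOn h1 (hmem w (hW hw)) e
      have h3 : f w ∈ M ∩ U := by rw [← hUW]; exact ⟨w, hw, rfl⟩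
      exact hz.2 (h2 ▸ h3.2)
    · rintro _ ⟨⟨z, hz, rfl⟩, hz2⟩
      have h1 : z ∈ U := by
        by_contra h1
        exact hz2 ⟨z, ⟨hz.1, h1⟩, rfl⟩
      have h2 : z ∈ f '' W := by rw [hUW]; exact ⟨hz.1, h1⟩
      obtain ⟨w, hw, rfl⟩ := h2
      exact ⟨w, hw, rfl⟩

theorem sub (h : Par m M X ν K') (hK' : IsClosed K') : Sub m (ν '' (M \ ν ⁻¹' K')) := by
  rintro _ ⟨y, hy, rfl⟩
  obtain ⟨f, V, u, hu, rfl, -, -, hc⟩ := h.exists_chart hK' hy.1 hy.2
  exact ⟨_, V, hc, u, hu, rfl⟩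

theorem image_subset (h : Par m M X ν K') : ν '' (M \ ν ⁻¹' K') ⊆ X := by
  rintro _ ⟨y, hy, rfl⟩
  exact h.smap.maps hy.1

theorem diff_subset (K' : Set E) : (K' ∪ ν '' M) \ K' ⊆ ν '' (M \ ν ⁻¹' K') := by
  rintro x ⟨hx | ⟨y, hy, rfl⟩, hx'⟩
  · exact (hx' hx).elim
  · exact ⟨y, ⟨hy, hx'⟩, rfl⟩

/-- a form vanishes on the stratum if its pull-back vanishes -/
theorem rt_eq_zero (h : Par m M X ν K') (hK' : IsClosed K') {y : E'} (hy : y ∈ M) (hyK : ν y ∉ K')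
    {w : E → Ext E} (hw : rt M y (F.pull ν w y) = 0) :
    rt (ν '' (M \ ν ⁻¹' K')) (ν y) (w (ν y)) = 0 := by
  obtain ⟨f, V, u, hu, rfl, hf, -, hc⟩ := h.exists_chart hK' hy hyK
  refine (res_chart hc hu _).2 ?_
  have h1 := (res_chart hf hu _).1 hw
  have h2 : fderiv ℝ (fun w => ν (f w)) u = (fderiv ℝ ν (f u)).comp (fderiv ℝ f u) :=
    fderiv_comp u (h.smap.diff hy) (hf.differentiableAt hu)
  rw [F.pull, pb_comp] at h1
  rw [h2]
  exact h1

/-- local smooth inverses -/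
theorem exists_inv (h : Par m M X ν K') (hK' : IsClosed K') {y : E'} (hy : y ∈ M)
    (hyK : ν y ∉ K') : ∃ (O : Set E) (σ : E → E'), IsOpen O ∧ ν y ∈ O ∧ Disjoint O K' ∧
      (∀ q ∈ O, ContDiffAt ℝ ∞ σ q ∧ σ q ∈ M) ∧ ∀ z ∈ M, ν z ∈ O → σ (ν z) = z := by
  obtain ⟨f, V, u, hu, rfl, hf, hV, hc⟩ := h.exists_chart hK' hy hyK
  obtain ⟨W, O, ℓ, hL, hO, -, hWV⟩ := hc.exists_loc hu
  refine ⟨O ∩ K'ᶜ, fun q => f (ℓ q), hL.oO.inter hK'.isOpen_compl, ⟨hO, hyK⟩,
    Set.disjoint_left.2 fun q hq => hq.2, fun q hq => ⟨?_, hf.mem (hWV (hL.maps q hq.1))⟩,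
    fun z hz hzO => ?_⟩
  · exact (hf.contDiffAt (hWV (hL.maps q hq.1))).comp q (hL.lC' hq.1)
  · have h1 : ν (f (ℓ (ν z))) = ν z := hL.right_inv ⟨z, ⟨hz, hzO.2⟩, rfl⟩ hzO.1
    have h2 := hWV (hL.maps _ hzO.1)
    exact h.injOn ⟨hf.mem h2, hV _ h2⟩ ⟨hz, hzO.2⟩ h1

/-- push-forward of a form which vanishes near the preimage of `K'` -/
theorem exists_push (h : Par m M X ν K') (hK' : IsClosed K') {θ₁ : E' → Ext E'} (hθ : Sm M θ₁)
    (h0 : EqN M (M ∩ ν ⁻¹' K') θ₁ 0) :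
    ∃ θ : E → Ext E, ContDiff ℝ ∞ θ ∧ (∀ x ∈ K', ∀ᶠ y in 𝓝 x, θ y = 0) ∧
      Eqv M (F.pull ν θ) θ₁ := by
  obtain ⟨N, hN, hDN, hp⟩ := exists_open h0
  have hC : IsCompact (ν '' (M \ N)) :=
    (h.clo.compact.diff hN).image_of_continuousOn (h.cont.mono sdiff_subset)
  have key : ∃ (θ : E → Ext E) (c : E → ℝ), ContDiff ℝ ∞ θ ∧ ContDiff ℝ ∞ c ∧
      (∀ x ∈ K', ∀ᶠ y in 𝓝 x, θ y = 0) ∧
      (∀ z ∈ M, rt M z (F.pull ν θ z) = c (ν z) • rt M z (θ₁ z)) ∧
      ∀ x ∈ ν '' (M \ N), c x = 1 := by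
    refine hC.induction_on (p := fun T => ∃ (θ : E → Ext E) (c : E → ℝ), ContDiff ℝ ∞ θ ∧
      ContDiff ℝ ∞ c ∧ (∀ x ∈ K', ∀ᶠ y in 𝓝 x, θ y = 0) ∧
      (∀ z ∈ M, rt M z (F.pull ν θ z) = c (ν z) • rt M z (θ₁ z)) ∧ ∀ x ∈ T, c x = 1) ?_ ?_ ?_ ?_
    · refine ⟨0, 0, contDiff_const, contDiff_const, fun x _ => Eventually.of_forall fun _ => rfl,
        fun z _ => ?_, fun x hx => hx.elim⟩
      rw [pull_zero', Pi.zero_apply, Pi.zero_apply, map_zero, zero_smul]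
    · rintro s t hst ⟨θ, c, h1, h2, h3, h4, h5⟩
      exact ⟨θ, c, h1, h2, h3, h4, fun x hx => h5 x (hst hx)⟩
    · rintro s t ⟨θ, c, h1, h2, h3, h4, h5⟩ ⟨θ', c', h1', h2', h3', h4', h5'⟩
      refine ⟨fun x => θ x + (1 - c x) • θ' x, fun x => c x + (1 - c x) * c' x,
        h1.add ((contDiff_const.sub h2).smul h1'), h2.add ((contDiff_const.sub h2).mul h2'),
        fun x hx => ?_, fun z hz => ?_, fun x hx => ?_⟩
      · filter_upwards [h3 x hx, h3' x hx] with y e1 e2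
        rw [e1, e2, smul_zero, add_zero]
      · rw [F.pull_add, F.pull_smul ν (fun x => 1 - c x) θ', map_add, map_smul, h4 z hz, h4' z hz,
          smul_smul, ← add_smul]
      · show c x + (1 - c x) * c' x = 1
        rcases hx with hx | hx
        · rw [h5 x hx]; ring
        · rw [h5' x hx]; ring
    · rintro _ ⟨y, hy, rfl⟩
      have hyK : ν y ∉ K' := fun hh => hy.2 (hDN ⟨hy.1, hh⟩)
      obtain ⟨O, σ, hO, hyO, hOK, hσ, hσν⟩ := h.exists_inv hK' hy.1 hyK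
      obtain ⟨χ, hχ, c0, c1, -⟩ := GP.exists_cut (K₁ := Oᶜ) (K₂ := {ν y}) hO.isClosed_compl
        isClosed_singleton (Set.disjoint_left.2 fun x hx hx' => hx (by rw [hx']; exact hyO))
      refine ⟨{x | χ x = 1}, mem_nhdsWithin_of_mem_nhds (c1 _ rfl),
        fun x => χ x • F.pull σ θ₁ x, χ, ?_, hχ, fun x hx => ?_, fun z hz => ?_, fun x hx => hx⟩
      · have h1 : Sm univ (fun x => χ x • F.pull σ θ₁ x) :=
          GP.sm_cut hχ (fun x _ hxO => c0 x hxO) (U := O) fun x hx =>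
            contDiffAt_pull (hσ x hx.2).1 (by simp) (hθ _ (hσ x hx.2).2)
        exact contDiff_iff_contDiffAt.2 fun x => h1 x (mem_univ x)
      · filter_upwards [c0 x (Set.disjoint_right.1 hOK hx)] with q hq
        rw [hq, zero_smul]
      · rw [F.pull_smul ν χ (F.pull σ θ₁), map_smul]
        by_cases hzO : ν z ∈ O
        · congr 1
          have hσd : DifferentiableAt ℝ σ (ν z) := (hσ _ hzO).1.differentiableAt (by simp)
          rw [F.pull_comp (h.smap.diff hz) hσd]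
          obtain ⟨U, hU, hUM⟩ := (continuousOn_iff'.1 h.cont) O hO
          have hzU : z ∈ U := by
            have : z ∈ U ∩ M := by rw [← hUM]; exact ⟨hzO, hz⟩
            exact this.1
          have hin : ∀ w ∈ M ∩ U, ν w ∈ O := by
            intro w hw
            have : w ∈ ν ⁻¹' O ∩ M := by rw [hUM]; exact ⟨hw.2, hw.1⟩
            exact this.1
          have h2 := eqv_pull_of_eq (X := M ∩ U) (f := σ ∘ ν) (g := fun w => w) θ₁
            (fun w hw => ((hσ _ (hin w hw)).1.differentiableAt (by simp)).comp w (h.smap.diff hw.1))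
            (fun w _ => differentiableAt_id) (fun w hw => hσν w hw.1 (hin w hw))
          rw [(eqv_inter_iff hU).1 h2 z hz hzU, F.pull_id]
        · rw [(c0 _ hzO).self_of_nhds, zero_smul, zero_smul]
  obtain ⟨θ, c, h1, -, h3, h4, h5⟩ := key
  refine ⟨θ, h1, h3, eqv_iff.2 fun z hz => ?_⟩
  have h6 := h4 z hz
  by_cases hzN : z ∈ N
  · have h7 := hp z hzN hz
    rw [Pi.zero_apply, map_zero] at h7
    rw [h7, smul_zero] at h6
    exact h6.trans h7.symm
  · rw [h5 _ ⟨z, ⟨hz, hzN⟩, rfl⟩, one_smul] at h6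
    exact h6

/-- germs pull back -/
theorem eventually_pre (h : Par m M X ν K') {q : E → Prop} (hq : ∀ᶠ x in 𝓝ˢ K', q x) :
    ∀ᶠ y in 𝓝ˢ (M ∩ ν ⁻¹' K'), q (ν y) :=
  eventually_nhdsSet_iff_forall.2 fun y hy =>
    (h.smap.smooth y hy.1).continuousAt.eventually (eventually_nhdsSet_iff_forall.1 hq _ hy.2)

end Par

/-- **low step** for a parametrised stratum -/
theorem Low.par (hX : Sub n X) (hK' : IsCompact K') (h : Par m M X ν K') (hm : m ≤ j)
    (hL : Low X K' j) : Low X (K' ∪ ν '' M) j :=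
  Low.step hX (h.sub hK'.isClosed) h.image_subset (hK'.union h.isCompact_image) hK'
    subset_union_left (Par.diff_subset K') hm hL


/-- **top step**: the pull-back to the parameter manifold is exact -/
theorem ExN.par (hX : Sub n X) (hK' : IsCompact K') (h : Par m M X ν K')
    (hL : Low M (M ∩ ν ⁻¹' K') j) (hp : j + 1 < p) (ha : Hom p a)
    (sa : SmN X (K' ∪ ν '' M) a) (ca : ClN X (K' ∪ ν '' M) a) (he : ExN X K' a)
    (hM : Coh M (F.pull ν a) 0) : ExN X (K' ∪ ν '' M) a := by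
  obtain ⟨q, rfl⟩ : ∃ q, p = q + 2 := ⟨p - 2, by omega⟩
  have hD := h.isCompact_pre hK'.isClosed
  obtain ⟨η, h1, h2, h3⟩ := he.exists_hom hK' ha
  set a₁ := a - F.d η with ha₁
  have z1 : EqN X K' a₁ 0 := eqN_sub_zero.2 h3
  have s1 : SmN X (K' ∪ ν '' M) a₁ := sa.sub (smN_of_sm h1.d)
  have c1 : ClN X (K' ∪ ν '' M) a₁ := ca.sub_d sa h1
  have hom1 : Hom (q + 2) a₁ := ha.sub h2.d
  -- a primitive on `M`
  have hM1 : Coh M (F.pull ν a₁) 0 := by
    have e1 : Coh M (F.pull ν (F.d η)) 0 :=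
      ⟨F.pull ν η, h1.pull h.smap, by rw [sub_zero]; exact (d_pull_eqv h.smap h1).symm⟩
    have := hM.sub e1
    rwa [sub_zero, ← pull_sub'] at this
  obtain ⟨θ₀, t1, t2, t3⟩ : ∃ θ₀ : E' → Ext E', Sm M θ₀ ∧ Hom (q + 1) θ₀ ∧
      Eqv M (F.pull ν a₁) (F.d θ₀) := by
    obtain ⟨ξ, e1, e2⟩ := hM1
    rw [sub_zero] at e2
    refine ⟨T.dp (q + 1) ξ, e1.dp _, hom_dp _ ξ, ?_⟩
    have e3 := (e2.dp (q + 2)).trans (Eqv.of_eq fun x hx => dp_d (q + 1) (e1.diff hx))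
    rwa [hom1.pull.dp_eq] at e3
  have z2 : EqN M (M ∩ ν ⁻¹' K') (F.pull ν a₁) 0 := by
    filter_upwards [h.eventually_pre z1] with y hy hyM
    have e1 := hy (h.smap.maps hyM)
    rw [Pi.zero_apply, map_zero] at e1
    rw [Pi.zero_apply, map_zero]
    exact pb_pull_eq_zero (h.smap.diff hyM) h.smap.maps e1
  have c2 : ClN M (M ∩ ν ⁻¹' K') θ₀ := (eqN_of_eqv t3).symm.trans z2
  obtain ⟨ζ, u1, u2⟩ := (hL (q + 1) (by omega) θ₀ t2 (smN_of_sm t1) c2).exists_global hD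
  obtain ⟨θ, v1, v2, v3⟩ := h.exists_push hK'.isClosed (t1.sub u1.d) (eqN_sub_zero.2 u2)
  have sθ : Sm X θ := fun x _ => v1.contDiffAt
  have w1 : Eqv M (F.pull ν (a₁ - F.d θ)) 0 := by
    have e1 : Eqv M (F.pull ν (F.d θ)) (F.d θ₀) := by
      have e2 := (d_pull_eqv h.smap sθ).symm.trans
        (v3.d h.clo.sub (sθ.pull h.smap) (t1.sub u1.d))
      have e3 := (d_sub_eqv t1 u1.d).trans ((Eqv.refl (F.d θ₀)).sub (resZero_iff.1 (d_d' u1)))
      rw [sub_zero] at e3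
      exact e2.trans e3
    have := t3.sub e1
    rwa [sub_self, ← pull_sub'] at this
  refine ExN.add_d (smN_of_sm h1) (ExN.add_d (smN_of_sm sθ) (core hX (h.sub hK'.isClosed)
    h.image_subset (hK'.union h.isCompact_image) hK' (Par.diff_subset K')
    (s1.sub (smN_of_sm sθ.d)) (c1.sub_d s1 sθ) ?_ (Eventually.of_forall ?_)))
  · have e1 : EqN X K' (F.d θ) 0 := by
      refine eventually_nhdsSet_iff_forall.2 fun x hx => ?_
      filter_upwards [(v2 x hx).eventually_nhds] with y hy _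
      have e2 : θ =ᶠ[𝓝 y] fun _ => 0 := hy
      rw [F.d_congr e2, F.d_const]
      rfl
    have := z1.sub e1
    rwa [sub_zero] at this
  · rintro _ ⟨y, hy, rfl⟩
    have e1 := eqv_iff.1 w1 y hy.1
    rw [Pi.zero_apply, map_zero] at e1
    rw [h.rt_eq_zero hK'.isClosed hy.1 hy.2 e1]
    exact (map_zero _).symm


end Crest.Agent.X262.Van
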